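import Crest.Agent.X212.Lab56.Cls
import Crest.Agent.X212.Cyl58.TP

/-!
# X212/Cnt42/Gen (helper42): a manifold which deforms into a compact set has countably many classes
-/

set_option autoImplicit false
set_option linter.unusedSectionVars false

open Set Filter Topology Function Matrix TopologicalSpace
open scoped ContDiff Manifold ComplexOrder
open Crest.Agent.X212.Pj41
open Crest.Agent.X212.Lab56
open Crest.Agent.X212.Line51 (Uni)
open Crest.Agent.X212.Cyl58 (TP TIso cylT)

noncomputable section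

namespace Crest.Agent.X212.Cnt42

section gen

variable {E : Type} [NormedAddCommGroup E] [NormedSpace ℝ E] [FiniteDimensional ℝ E]
  {H : Type} [TopologicalSpace H] {I : ModelWithCorners ℝ E H}
  {M : Type} [TopologicalSpace M] [ChartedSpace H M] [IsManifold I ∞ M]

/-- close lines are isomorphic -/
theorem uni_of_close {n : Type} [Fintype n] [DecidableEq n] {q q' : M → Matrix n n ℂ}
    (h : LOn I q univ) (h' : LOn I q' univ) {K : Set M}
    (e : ∀ x ∈ K, (gram (q x) (q' x * q x)).det ≠ 0) :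
    Uni I q q' (fun x => nrm (q x) (q' x * q x)) K := by
  have p : ∀ x ∈ K, (gram (q x) (q' x * q x)).PosDef := fun x hx =>
    (gram_posSemidef (h.prj x trivial) _).posDef_iff_isUnit.2
      ((isUnit_iff_isUnit_det _).2 (e x hx).isUnit)
  exact ⟨fun x hx => MSm.nrm (h.sm x trivial) ((h'.sm x trivial).mul (h.sm x trivial))
      (.of_forall fun y => h.prj y trivial) (p x hx),
    fun x hx => nrm_piso (h.prj x trivial) (h'.prj x trivial)
      (by rw [Matrix.mul_assoc, (h.prj x trivial).idem])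
      (by rw [← Matrix.mul_assoc, (h'.prj x trivial).idem]) (p x hx)
      ((h.tr x trivial).trans (h'.tr x trivial).symm)⟩

theorem exists_basic {X n : Type} [TopologicalSpace X] [CompactSpace X] [T2Space X]
    [SecondCountableTopology X] [Fintype n] [DecidableEq n] (F : C(X, n → n → ℂ))
    (hF : ∀ x, Prj (of (F x))) : ∃ s : countableBasis C(X, n → n → ℂ), F ∈ s.1 ∧
      ∀ g ∈ s.1, ∀ x, (gram (of (F x)) (of (g x) * of (F x))).det ≠ 0 := by
  have c : Continuous fun z : C(X, n → n → ℂ) × X =>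
      (gram (of (F z.2)) (of (z.1 z.2) * of (F z.2))).det := by
    have c1 : Continuous fun z : C(X, n → n → ℂ) × X => (of (F z.2) : Matrix n n ℂ) :=
      F.continuous.comp continuous_snd
    have c2 : Continuous fun z : C(X, n → n → ℂ) × X => (of (z.1 z.2) : Matrix n n ℂ) :=
      continuous_eval
    exact (((c2.matrix_mul c1).matrix_conjTranspose.matrix_mul (c2.matrix_mul c1)).add
      (continuous_const.sub c1)).matrix_det
  obtain ⟨s, h1, h2, h3⟩ := (isBasis_countableBasis C(X, n → n → ℂ)).mem_nhds_iff.1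
    (isCompact_univ.eventually_forall_of_forall_eventually (x₀ := F)
      (P := fun g x => (gram (of (F x)) (of (g x) * of (F x))).det ≠ 0) fun x _ =>
        c.continuousAt.eventually_ne (by
          simp only [Pj41.gram, (hF x).idem, (hF x).herm, add_sub_cancel, det_one]
          exact one_ne_zero))
  exact ⟨⟨s, h1⟩, h2, fun g hg x => h3 hg x trivial⟩

variable [T2Space M] [SigmaCompactSpace M] [I.Boundaryless] [SecondCountableTopology M]

theorem countable_cls {K O O' : Set M} (hK : IsCompact K) (hO : IsOpen O) (h1 : Dfm univ O)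
    (h2 : Dfm O O') (h3 : O' ⊆ O) (h4 : O' ⊆ K) : Countable (Cls I (univ : Set M)) := by
  rcases isEmpty_or_nonempty (Cls I (univ : Set M)) with c | ⟨⟨⟨a₀⟩⟩⟩
  · infer_instance
  have := isCompact_iff_compactSpace.1 hK
  let F : ∀ a : Dat I (univ : Set M), C(K, Fin a.N × Fin a₀.N → Fin a.N × Fin a₀.N → ℂ) := fun a =>
    ⟨fun x => a₀.d.hl a.d x, continuous_iff_continuousAt.2 fun x =>
      ((a₀.ok.hl a.ok).sm x trivial).continuousAt.comp continuous_subtype_val.continuousAt⟩
  choose B B1 B2 using fun a => exists_basic (F a) fun x => (a₀.ok.hl a.ok).prj x trivial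
  have key : ∀ a a' : Dat I (univ : Set M), (⟨a.N, B a⟩ : Σ N : ℕ,
      countableBasis C(K, Fin N × Fin a₀.N → Fin N × Fin a₀.N → ℂ)) = ⟨a'.N, B a'⟩ →
      Eqv a.d a'.d univ := by
    rintro ⟨n, N, d, ok⟩ ⟨n', N', d', ok'⟩ e
    obtain ⟨rfl, e⟩ := Sigma.mk.inj_iff.1 e
    have l := a₀.ok.hl ok
    have l' := a₀.ok.hl ok'
    have m : F ⟨n', N, d', ok'⟩ ∈ (B ⟨n, N, d, ok⟩).1 := by
      rw [eq_of_heq e]
      exact B1 _
    have u := (Eqv.refl (a₀.ok.mono (subset_univ O'))).tw (uni_of_close l l' (K := O') fun x hx =>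
      B2 ⟨n, N, d, ok⟩ _ m ⟨x, h4 hx⟩)
    have t := a₀.ok.tw l
    have t' := a₀.ok.tw l'
    exact (((eqv_ev a₀.ok ok).symm t ok).trans isOpen_univ ok t t' (h1.eqv isOpen_univ (subset_univ _) t t'
      (h2.eqv hO h3 (t.mono (subset_univ _)) (t'.mono (subset_univ _)) u))).trans isOpen_univ ok t' ok'
      (eqv_ev a₀.ok ok')
  exact Injective.countable (f := fun c : Cls I (univ : Set M) => (⟨(Quot.out c).N, B (Quot.out c)⟩ :
    Σ N : ℕ, countableBasis C(K, Fin N × Fin a₀.N → Fin N × Fin a₀.N → ℂ))) fun c c' e =>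
      (Quot.out_eq c).symm.trans ((Quot.sound (key _ _ e)).trans (Quot.out_eq c'))

end gen

theorem dfm_refl {X : Type*} [TopologicalSpace X] (O : Set X) : Dfm O O :=
  ⟨Prod.snd, continuousOn_snd, fun _ _ _ h => h, fun _ h => h, fun _ _ => rfl⟩

/-- retraction of a product region -/
theorem dfm_end {V W : Type} [NormedAddCommGroup V] [NormedSpace ℝ V] [NormedAddCommGroup W]
    [NormedSpace ℝ W] {Y : Glue52.Pc W} [CompactSpace Y.M] [T2Space Y.M] [SecondCountableTopology Y.M]
    [Nonempty Y.M] {X : TP V} {J L L' : Set ℝ} (k : TIso (cylT Y) X J) (hJ : IsOpen J)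
    (cJ : Convex ℝ J) (cL : Convex ℝ L) {c : ℝ → ℝ} (hc : Continuous c) (mJ : MapsTo c J J)
    (mL : MapsTo c L L') (sL : L' ⊆ L) (e : ∀ s ∉ J, ∀ᶠ r in 𝓝 s, c r = r) :
    Dfm (X.τ ⁻¹' L) (X.τ ⁻¹' L') := by
  classical
  let g : ℝ × X.P.M → ℝ := fun z => (1 - z.1) * c (X.τ z.2) + z.1 * X.τ z.2
  have cg : Continuous g := ((continuous_const.sub continuous_fst).mul
    (hc.comp (X.cont.comp continuous_snd))).add (continuous_fst.mul (X.cont.comp continuous_snd))
  have gJ : ∀ z : ℝ × X.P.M, z.1 ∈ Icc (0 : ℝ) 1 → X.τ z.2 ∈ J → g z ∈ J := fun z h1 h2 =>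
    cJ (mJ h2) h2 (sub_nonneg.2 h1.2) h1.1 (sub_add_cancel _ _)
  let h : ℝ × X.P.M → X.P.M := fun z => if X.τ z.2 ∈ J then k ((k.symm z.2).1, g z) else z.2
  have h0 : ∀ z : ℝ × X.P.M, g z = X.τ z.2 → h z = z.2 := fun z hz => by
    simp only [h]
    split_ifs with c
    · rw [hz, ← k.symm.tm _ c]
      exact k.apply_symm c
    · rfl
  have h1 : ∀ z : ℝ × X.P.M, z.1 ∈ Icc (0 : ℝ) 1 → X.τ (h z) = g z := fun z hz => by
    by_cases c : X.τ z.2 ∈ J
    · simp only [h, if_pos c]
      exact k.tm _ (gJ z hz c)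
    · simp only [h, if_neg c, g, (e _ c).self_of_nhds]
      ring
  refine ⟨h, fun z hz => ContinuousAt.continuousWithinAt ?_, fun t ht x hx => ?_, fun x hx => ?_,
    fun x _ => h0 _ (by simp [g])⟩
  · have ct := (X.cont.comp (continuous_snd (X := ℝ))).continuousAt (x := z)
    by_cases q : X.τ z.2 ∈ J
    · refine ContinuousAt.congr (f := fun z => k ((k.symm z.2).1, g z)) ?_ ?_
      · exact (k.ld (x := ((k.symm z.2).1, g z)) (gJ z hz.1 q)).contMDiffAt.continuousAt.comp
          (f := fun z : ℝ × X.P.M => ((k.symm z.2).1, g z))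
          ((((k.symm.ld q).contMDiffAt.continuousAt.comp continuousAt_snd).fst).prodMk cg.continuousAt)
      · filter_upwards [ct (hJ.mem_nhds q)] with w hw using (if_pos hw).symm
    · refine continuousAt_snd.congr ?_
      filter_upwards [ct (e _ q)] with w hw
      refine (h0 w ?_).symm
      simp only [g, show c (X.τ w.2) = X.τ w.2 from hw]
      ring
  · rw [mem_preimage, h1 (t, x) ht]
    exact cL (sL (mL hx)) hx (sub_nonneg.2 ht.2) ht.1 (sub_add_cancel _ _)
  · rw [mem_preimage, h1 (0, x) (left_mem_Icc.2 zero_le_one)]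
    simpa [g] using mL hx

end Crest.Agent.X212.Cnt42
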