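import Crest.Agent.X212.Cnt42.Gen
import Crest.Agent.X212.Bor5.Ex

/-!
# X212/Cnt42/Main (helper42): TH-CNT
-/

set_option autoImplicit false

open Set Filter Topology
open Crest.Agent.X212.Lab56 (Dfm)
open Crest.Agent.X212.Cyl58 (TIso)
open Crest.Agent.X212.Bor5.T

namespace Crest.Agent.X212.Cnt42

theorem dfm_out {W : W4} {B : O3} {b : ℝ} (k : TIso B.cyl W.X (Ioi b)) {s : ℝ} (h : b < s) :
    Dfm univ (W.X.τ ⁻¹' Iio (s + 1)) :=
  dfm_end k isOpen_Ioi (convex_Ioi b) convex_univ (c := (min · s)) (by fun_prop)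
    (fun _ ht => lt_min ht h) (fun _ _ => (min_le_right _ _).trans_lt (lt_add_one s)) (subset_univ _)
    fun _ ht => (gt_mem_nhds ((not_lt.1 ht).trans_lt h)).mono fun _ hr => min_eq_left hr.le

theorem sig (W : W4) : SigmaCompactSpace W.M :=
  ⟨⟨fun n : ℕ => W.X.τ ⁻¹' Icc (-n : ℝ) n, fun _ => W.X.prop _ _, eq_univ_of_forall fun x =>
    let ⟨n, hn⟩ := exists_nat_ge |W.X.τ x|; mem_iUnion.2 ⟨n, abs_le.1 hn⟩⟩⟩

/-- **TH-CNT** -/
theorem cnt : CntStmt := by
  refine ⟨fun A B C => ?_, fun B C => ?_⟩ <;> have := sig C.toW4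
  · have h : min C.a C.b - 1 < C.a := (sub_one_lt _).trans_le (min_le_left _ _)
    refine countable_cls (C.X.prop (min C.a C.b - 1) (C.b + 1 + 1)) (isOpen_Iio.preimage C.X.cont)
      (dfm_out C.ko (lt_add_one C.b)) (dfm_end C.ki isOpen_Iio (convex_Iio _) (convex_Iio _)
        (c := (max · (min C.a C.b - 1))) (L' := Ico (min C.a C.b - 1) (C.b + 1 + 1)) (by fun_prop)
        (fun _ ht => max_lt ht h) (fun _ ht => ⟨le_max_right _ _, max_lt ht ?_⟩) Ico_subset_Iio_self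
        fun _ ht => (lt_mem_nhds (h.trans_le (not_lt.1 ht))).mono fun _ hr => max_eq_left hr.le)
      (preimage_mono Ico_subset_Iio_self) (preimage_mono Ico_subset_Icc_self)
    linarith [min_le_right C.a C.b]
  · obtain ⟨s, hs⟩ := C.lo
    exact countable_cls (C.X.prop s (C.b + 1 + 1)) (isOpen_Iio.preimage C.X.cont)
      (dfm_out C.ko (lt_add_one C.b)) (dfm_refl _) Subset.rfl fun x hx => ⟨hs x, le_of_lt hx⟩

end Crest.Agent.X212.Cnt42
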